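import Vale.Agent.P370Z.POIS.Kernel

/-! The Poisson formula `-(1 / (4 π)) ∫ Δ F (y) / |x - y| dy = F x`. -/

namespace Vale.Agent.P370Z

open MeasureTheory Finset Filter Topology
open Vale.Agent.P363.Stmt Vale.Agent.P363.R.H10

noncomputable section

namespace POIS

lemma hasLineDerivAt_ofLp {F : P3 → ℝ} (hF : Differentiable ℝ F) (i : Fin 3) (y : R3) :
    HasLineDerivAt ℝ (fun y : R3 => F y.ofLp) (pd i F y.ofLp) y (ei i) := by
  have h := (hF y.ofLp).hasFDerivAt.hasLineDerivAt (Pi.single i (1 : ℝ))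
  unfold HasLineDerivAt at h ⊢
  convert! h using 1

lemma hcs_ofLp {F : P3 → ℝ} (hF : HasCompactSupport F) :
    HasCompactSupport (fun y : R3 => F y.ofLp) :=
  hF.comp_homeomorph (PiLp.homeomorph 2 (fun _ : Fin 3 => ℝ))

lemma hcs_pd {F : P3 → ℝ} (hF : HasCompactSupport F) (i : Fin 3) :
    HasCompactSupport (pd i F) :=
  (hF.fderiv (𝕜 := ℝ)).comp_left (g := fun L : P3 →L[ℝ] ℝ => L (Pi.single i 1)) (by simp)

lemma continuous_kk {e : ℝ} (he : 0 < e) (a : R3) : Continuous (kk e a) :=
  continuous_const.div (continuous_ss e a) fun y => (ss_pos he a y).ne'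

lemma continuous_kk1 {e : ℝ} (he : 0 < e) (a : R3) (i : Fin 3) : Continuous (kk1 e a i) := by
  unfold kk1
  exact Continuous.div (by fun_prop) ((continuous_ss e a).pow 3)
    fun y => pow_ne_zero _ (ss_pos he a y).ne'

lemma continuous_kk2 {e : ℝ} (he : 0 < e) (a : R3) (i : Fin 3) : Continuous (kk2 e a i) := by
  unfold kk2
  refine Continuous.add ?_ ?_
  · exact Continuous.div (by fun_prop) ((continuous_ss e a).pow 3)
      fun y => pow_ne_zero _ (ss_pos he a y).ne'
  · exact Continuous.div (by fun_prop) ((continuous_ss e a).pow 5)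
      fun y => pow_ne_zero _ (ss_pos he a y).ne'

lemma ibp {f f' g g' : R3 → ℝ} {v : R3} (cf : Continuous f) (cf' : Continuous f')
    (cg : Continuous g) (cg' : Continuous g') (sf : HasCompactSupport f)
    (sf' : HasCompactSupport f') (hf : ∀ x, HasLineDerivAt ℝ f (f' x) x v)
    (hg : ∀ x, HasLineDerivAt ℝ g (g' x) x v) :
    ∫ x, f x * g' x = -∫ x, f' x * g x := by
  have := integral_bilinear_hasLineDerivAt_right_eq_neg_left_of_integrable (μ := volume)
    (f := f) (f' := f') (g := g) (g' := g') (v := v) (B := ContinuousLinearMap.mul ℝ ℝ)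
    ((cf'.mul cg).integrable_of_hasCompactSupport sf'.mul_right)
    ((cf.mul cg').integrable_of_hasCompactSupport sf.mul_right)
    ((cf.mul cg).integrable_of_hasCompactSupport sf.mul_right)
    (fun x _ => hf x) (fun x _ => hg x)
  simpa using this

/-- The Laplacian along the coordinates. -/
def lap (F : P3 → ℝ) (y : P3) : ℝ := ∑ i, pd i (pd i F) y

variable {F : P3 → ℝ} {CF : ℝ}

lemma continuous_lap (hF : BdM 2 CF F) : Continuous (lap F) := by
  unfold lap
  exact continuous_finsetSum _ fun i _ => ((hF.2.2 i).2.2 i).1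

lemma hcs_lap (hs : HasCompactSupport F) : HasCompactSupport (lap F) := by
  have : lap F = pd 0 (pd 0 F) + pd 1 (pd 1 F) + pd 2 (pd 2 F) := by
    ext y; simp [lap, Fin.sum_univ_three]
  rw [this]
  exact ((hcs_pd (hcs_pd hs 0) 0).add (hcs_pd (hcs_pd hs 1) 1)).add (hcs_pd (hcs_pd hs 2) 2)

lemma green_coord (hF : BdM 2 CF F) (hs : HasCompactSupport F) {e : ℝ} (he : 0 < e) (a : R3)
    (i : Fin 3) :
    ∫ y : R3, pd i (pd i F) y.ofLp * kk e a y = ∫ y : R3, F y.ofLp * kk2 e a i y := by
  have c0 : Continuous (fun y : R3 => F y.ofLp) := hF.1.continuous.comp (by fun_prop)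
  have c1 : Continuous (fun y : R3 => pd i F y.ofLp) :=
    (hF.2.2 i).1.continuous.comp (by fun_prop)
  have c2 : Continuous (fun y : R3 => pd i (pd i F) y.ofLp) :=
    ((hF.2.2 i).2.2 i).1.comp (by fun_prop)
  have s0 := hcs_ofLp hs
  have s1 := hcs_ofLp (hcs_pd hs i)
  have s2 := hcs_ofLp (hcs_pd (hcs_pd hs i) i)
  have h1 := ibp c1 c2 (continuous_kk he a) (continuous_kk1 he a i) s1 s2
    (hasLineDerivAt_ofLp (hF.2.2 i).1 i) (fun y => hasLineDerivAt_kk (ss_pos he a y) i)
  have h2 := ibp c0 c1 (continuous_kk1 he a i) (continuous_kk2 he a i) s0 s1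
    (hasLineDerivAt_ofLp hF.1 i) (fun y => hasLineDerivAt_kk1 (ss_pos he a y) i)
  linarith

lemma green (hF : BdM 2 CF F) (hs : HasCompactSupport F) {e : ℝ} (he : 0 < e) (a : R3) :
    ∫ y : R3, lap F y.ofLp * kk e a y = -∫ y : R3, 3 * e ^ 2 / ss e a y ^ 5 * F y.ofLp := by
  have c0 : Continuous (fun y : R3 => F y.ofLp) := hF.1.continuous.comp (by fun_prop)
  have c2 : ∀ i, Continuous (fun y : R3 => pd i (pd i F) y.ofLp) := fun i =>
    ((hF.2.2 i).2.2 i).1.comp (by fun_prop)
  have i1 : ∀ i, Integrable (fun y : R3 => pd i (pd i F) y.ofLp * kk e a y) := fun i =>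
    ((c2 i).mul (continuous_kk he a)).integrable_of_hasCompactSupport
      (hcs_ofLp (hcs_pd (hcs_pd hs i) i)).mul_right
  have i2 : ∀ i, Integrable (fun y : R3 => F y.ofLp * kk2 e a i y) := fun i =>
    (c0.mul (continuous_kk2 he a i)).integrable_of_hasCompactSupport (hcs_ofLp hs).mul_right
  have e1 : ∫ y : R3, lap F y.ofLp * kk e a y =
      ∑ i, ∫ y : R3, pd i (pd i F) y.ofLp * kk e a y := by
    rw [← integral_finsetSum _ fun i _ => i1 i]
    congr 1
    ext y
    rw [lap, Finset.sum_mul]
  rw [e1, Finset.sum_congr rfl fun i _ => green_coord hF hs he a i,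
    ← integral_finsetSum _ fun i _ => i2 i, ← integral_neg]
  congr 1
  ext y
  rw [Fin.sum_univ_three]
  have := sum_kk2 (ss_pos he a y)
  linear_combination F y.ofLp * this

lemma integrable_lap_mul (hF : BdM 2 CF F) (hs : HasCompactSupport F) (x : P3) :
    Integrable (fun y : P3 => lap F y * (1 / nrm (x - y))) := by
  have hc := hcs_lap hs
  have h1 := integrableOn_inv_nrm x hc.isCompact.isBounded (isClosed_tsupport _).measurableSet
  have h2 : IntegrableOn (fun y : P3 => lap F y * (1 / nrm (x - y))) (tsupport (lap F)) :=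
    IntegrableOn.continuousOn_mul (continuous_lap hF).continuousOn h1 hc.isCompact
  refine (integrableOn_iff_integrable_of_support_subset ?_).1 h2
  intro y hy
  exact subset_tsupport _ (left_ne_zero_of_mul hy)

theorem poisson_full (hF : BdM 2 CF F) (hs : HasCompactSupport F) (x : P3) :
    ∫ y : P3, lap F y * (1 / nrm (x - y)) = -(4 * Real.pi * F x) := by
  set a : R3 := WithLp.toLp 2 x with ha
  set e : ℕ → ℝ := fun n => 1 / ((n : ℝ) + 1) with he
  have hpos : ∀ n, 0 < e n := fun n => by positivity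
  have h0 : Tendsto e atTop (𝓝 0) := tendsto_one_div_add_atTop_nhds_zero_nat
  have c0 : Continuous (fun y : R3 => F y.ofLp) := hF.1.continuous.comp (by fun_prop)
  have hR : Tendsto (fun n => ∫ y : R3, 3 * e n ^ 2 / ss (e n) a y ^ 5 * F y.ofLp) atTop
      (𝓝 (4 * Real.pi * F x)) :=
    tendsto_approx (V := fun y : R3 => F y.ofLp) (C := CF) c0.measurable
      (fun y => hF.2.1 _) c0.continuousAt hpos h0
  have hk : ∀ n (y : P3), kk (e n) a (WithLp.toLp 2 y) = 1 / √(nrm (x - y) ^ 2 + e n ^ 2) := by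
    intro n y
    rw [kk, ss, nrm_eq, ← norm_neg]
    congr 5
    rw [neg_sub]
    rfl
  have hL : Tendsto (fun n => ∫ y : P3, lap F y * (1 / √(nrm (x - y) ^ 2 + e n ^ 2))) atTop
      (𝓝 (∫ y : P3, lap F y * (1 / nrm (x - y)))) := by
    have ane : ∀ᵐ y : P3, y ≠ x := by rw [ae_iff]; simp
    have hp : ∀ y : P3, y ≠ x → 0 < nrm (x - y) := by
      intro y hy
      rw [nrm_eq, norm_pos_iff]
      intro h
      apply hy
      have := congrArg WithLp.ofLp h
      simp only [WithLp.ofLp_zero] at this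
      exact (sub_eq_zero.1 this).symm
    refine tendsto_integral_of_dominated_convergence
      (fun y => ‖lap F y * (1 / nrm (x - y))‖) ?_ (integrable_lap_mul hF hs x).norm ?_ ?_
    · intro n
      have := measurable_nrm
      have := (continuous_lap hF).measurable
      exact Measurable.aestronglyMeasurable (by fun_prop)
    · intro n
      filter_upwards [ane] with y hy
      have h1 := hp y hy
      rw [norm_mul, norm_mul]
      refine mul_le_mul_of_nonneg_left ?_ (norm_nonneg _)
      rw [Real.norm_of_nonneg (by positivity), Real.norm_of_nonneg (by positivity)]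
      apply one_div_le_one_div_of_le h1
      exact Real.le_sqrt_of_sq_le (by nlinarith [sq_nonneg (e n)])
    · filter_upwards [ane] with y hy
      have h1 := hp y hy
      apply Tendsto.const_mul
      apply Tendsto.div tendsto_const_nhds _ h1.ne'
      have h2 := (tendsto_const_nhds (x := nrm (x - y) ^ 2).add (h0.pow 2)).sqrt
      simpa [Real.sqrt_sq h1.le] using h2
  have heq : ∀ n, ∫ y : P3, lap F y * (1 / √(nrm (x - y) ^ 2 + e n ^ 2)) =
      -∫ y : R3, 3 * e n ^ 2 / ss (e n) a y ^ 5 * F y.ofLp := by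
    intro n
    rw [← green hF hs (hpos n) a, ← integral_toLp]
    congr 1
    ext y
    rw [hk]
  simp only [heq] at hL
  exact tendsto_nhds_unique hL hR.neg

end POIS

open POIS in
theorem poisson (ρ : ℕ) (l : Fin 3 → ℕ) (F : P3 → ℝ) (CF : ℝ) (hF : BdM 2 CF F)
    (hs : ∀ x, F x ≠ 0 → ∀ k, |x k| ≤ (l k : ℝ) - 1) (x : P3) :
    -(1 / (4 * Real.pi)) * muD ρ l F (fun t => 1 / nrm (x - t)) = slabPot ρ l x + F x := by
  have hts : tsupport F ⊆ box l := by
    refine closure_minimal (fun y hy k => ?_) (isClosed_box l)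
    have := hs y hy k
    linarith
  have hc : HasCompactSupport F :=
    (isCompact_box l).of_isClosed_subset (isClosed_tsupport F) hts
  have hpd : ∀ (G : P3 → ℝ) (i : Fin 3), tsupport (pd i G) ⊆ tsupport G := by
    intro G i
    refine subset_trans ?_ (tsupport_fderiv_subset ℝ (f := G))
    refine closure_mono fun y hy => ?_
    intro h
    apply hy
    simp [pd, h]
  have hz : ∀ y, y ∉ box l → lap F y * (1 / nrm (x - y)) = 0 := by
    intro y hy
    have : lap F y = 0 := by
      refine Finset.sum_eq_zero fun i _ => ?_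
      by_contra h
      exact hy (hts (hpd F i (hpd (pd i F) i (subset_tsupport _ h))))
    rw [this, zero_mul]
  have e1 : ∫ y in box l, lap F y * (1 / nrm (x - y)) = -(4 * Real.pi * F x) := by
    rw [setIntegral_eq_integral_of_forall_compl_eq_zero hz, poisson_full hF hc x]
  have e2 : muD ρ l F (fun t => 1 / nrm (x - t)) =
      3 * (ρ : ℝ) * (∫ y in box l, 1 / nrm (x - y)) +
        ∫ y in box l, lap F y * (1 / nrm (x - y)) := by
    rw [← integral_const_mul, ← integral_add ((integrableOn_box l x).const_mul _)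
      (integrable_lap_mul hF hc x).integrableOn, muD]
    congr 1
    ext y
    rw [lap]
    ring
  rw [e2, e1, slabPot]
  have := Real.pi_pos
  field_simp
  ring

end

end Vale.Agent.P370Z
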