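import Vale.Agent.P370Z.Basic
import Vale.Agent.P363.R.H10.Approx

/-! Transfer between `P3` and Euclidean space; local integrability of the Coulomb kernel. -/

namespace Vale.Agent.P370Z.POIS

open MeasureTheory Finset Filter Topology
open Vale.Agent.P363.Stmt Vale.Agent.P363.R.H10

noncomputable section

lemma nrm_eq (x : P3) : nrm x = ‖(WithLp.toLp 2 x : R3)‖ := by
  rw [nrm, EuclideanSpace.norm_eq]
  simp

lemma nrm_nonneg (x : P3) : 0 ≤ nrm x := Real.sqrt_nonneg _

lemma continuous_nrm : Continuous nrm := by unfold nrm; fun_prop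

lemma measurable_nrm : Measurable nrm := continuous_nrm.measurable

lemma integral_toLp (f : R3 → ℝ) : ∫ y : P3, f (WithLp.toLp 2 y) = ∫ y : R3, f y :=
  (PiLp.volume_preserving_toLp (Fin 3)).integral_comp
    (MeasurableEquiv.toLp 2 (Fin 3 → ℝ)).measurableEmbedding f

lemma integrable_toLp {f : R3 → ℝ} (hf : Integrable f) :
    Integrable (fun y : P3 => f (WithLp.toLp 2 y)) :=
  ((PiLp.volume_preserving_toLp (Fin 3)).integrable_comp_emb
    (MeasurableEquiv.toLp 2 (Fin 3 → ℝ)).measurableEmbedding).2 hf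

lemma nrm_le (x : P3) : nrm x ≤ 2 * ‖x‖ := by
  have h : ∀ k, x k ^ 2 ≤ ‖x‖ ^ 2 := fun k => by
    rw [← sq_abs]
    exact pow_le_pow_left₀ (abs_nonneg _) (by simpa using norm_le_pi_norm x k) 2
  rw [nrm]
  apply Real.sqrt_le_iff.2
  refine ⟨by positivity, ?_⟩
  rw [Fin.sum_univ_three]
  nlinarith [h 0, h 1, h 2, sq_nonneg ‖x‖]

lemma integrable_majP (x : P3) :
    Integrable (fun y : P3 => 1 / (nrm (x - y) ^ 2 * (1 + nrm (x - y)) ^ 2)) := by
  have h := integrable_toLp (integrable_maj_sub (WithLp.toLp 2 x))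
  refine h.congr (ae_of_all _ fun y => ?_)
  simp only [nrm_eq]
  rfl

lemma measurable_inv_nrm (x : P3) : Measurable (fun y : P3 => 1 / nrm (x - y)) :=
  measurable_const.div (measurable_nrm.comp (measurable_const.sub measurable_id))

/-- The Coulomb kernel is integrable on bounded sets. -/
lemma integrableOn_inv_nrm (x : P3) {s : Set P3} (hs : Bornology.IsBounded s)
    (hm : MeasurableSet s) : IntegrableOn (fun y : P3 => 1 / nrm (x - y)) s := by
  obtain ⟨R, hR⟩ := hs.exists_norm_le
  set M : ℝ := 2 * (‖x‖ + |R|) with hM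
  have hM0 : 0 ≤ M := by positivity
  refine Integrable.mono' (g := fun y => M * (1 + M) ^ 2 *
      (1 / (nrm (x - y) ^ 2 * (1 + nrm (x - y)) ^ 2)))
    ((integrable_majP x).const_mul _).integrableOn
    (measurable_inv_nrm x).aestronglyMeasurable ?_
  refine (ae_restrict_iff' hm).2 (ae_of_all _ fun y hy => ?_)
  have h0 := nrm_nonneg (x - y)
  have h1 : nrm (x - y) ≤ M := by
    refine (nrm_le _).trans ?_
    have := norm_sub_le x y
    have := hR y hy
    have := le_abs_self R
    linarith
  rw [Real.norm_of_nonneg (by positivity)]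
  rcases h0.eq_or_lt with h | h
  · rw [← h]; simp
  · have e : 1 / nrm (x - y) = nrm (x - y) * (1 + nrm (x - y)) ^ 2 *
        (1 / (nrm (x - y) ^ 2 * (1 + nrm (x - y)) ^ 2)) := by field_simp
    rw [e]
    gcongr

lemma isClosed_box (l : Fin 3 → ℕ) : IsClosed (box l) := by
  have : box l = ⋂ k, {x : P3 | |x k| ≤ l k} := by ext x; simp [box]
  rw [this]
  exact isClosed_iInter fun k => isClosed_le (by fun_prop) continuous_const

lemma measurableSet_box (l : Fin 3 → ℕ) : MeasurableSet (box l) := (isClosed_box l).measurableSet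

lemma isBounded_box (l : Fin 3 → ℕ) : Bornology.IsBounded (box l) := by
  refine (Metric.isBounded_closedBall (x := (0 : P3)) (r := ∑ k, (l k : ℝ))).subset fun x hx => ?_
  rw [mem_closedBall_zero_iff, pi_norm_le_iff_of_nonneg (by positivity)]
  intro k
  refine (hx k).trans ?_
  exact Finset.single_le_sum (f := fun k => (l k : ℝ)) (fun _ _ => by positivity) (mem_univ k)

lemma isCompact_box (l : Fin 3 → ℕ) : IsCompact (box l) :=
  Metric.isCompact_of_isClosed_isBounded (isClosed_box l) (isBounded_box l)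

lemma integrableOn_box (l : Fin 3 → ℕ) (x : P3) :
    IntegrableOn (fun y : P3 => 1 / nrm (x - y)) (box l) :=
  integrableOn_inv_nrm x (isBounded_box l) (measurableSet_box l)

end

end Vale.Agent.P370Z.POIS
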